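import Mathlib
import Vale.Agent.Lib.P162.Defs
import Vale.Agent.Lib.P162.RDefs
import Vale.Agent.Lib.P162.CVDefs
import Vale.Agent.Lib.P162.helper43.LumpTail
import Vale.Agent.Lib.P162.helper95.KmatBasic
import Vale.Agent.Lib.P162.helper36.MoveInj
import Vale.Agent.Lib.P162.helper23.ProdTv
import Vale.Agent.Lib.P162.helper5.TvStep

/-!
Thorp shuffle, pool piece CV5 (backup copy): the `l1` defect of the new card is at most the
square root of `m` times the collision probability of two walkers minus one.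
The first lemma is a statement about finite sums of reals only.
-/

namespace Vale.Agent.Lib.P162.H85CV

open Finset BigOperators

/-- Abstract core: Cauchy-Schwarz over the free positions and over the old configurations. -/
theorem defect_core {α V : Type*} [Fintype α] [Fintype V]
    (a r Qd : α → V → ℝ) (b : V → ℝ) (good : α → V → Prop) (m : ℝ) (hm : 0 < m)
    (ha : ∀ q v, 0 ≤ a q v) (hQ : ∀ q v, 0 ≤ Qd q v)
    (hF1 : ∀ v, ∑ q, a q v = b v)
    (hF2 : ∀ q v, a q v ≠ 0 → good q v)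
    (hr1 : ∀ q v, good q v → r q v = b v / m)
    (hr0 : ∀ q v, ¬ good q v → r q v = 0)
    (hcard : ∀ v, b v ≠ 0 → ∃ H : Finset α, (∀ q, q ∈ H ↔ good q v) ∧ (H.card : ℝ) = m)
    (hF3 : ∀ q v, a q v ^ 2 ≤ b v * Qd q v)
    (hF4 : ∑ v, b v = 1) :
    (∑ v, ∑ q, |a q v - r q v|) ^ 2 ≤ m * (∑ v, ∑ q, Qd q v) - 1 := by
  classical
  have hm0 : m ≠ 0 := ne_of_gt hm
  have hb : ∀ v, 0 ≤ b v := fun v => by
    rw [← hF1 v]
    exact Finset.sum_nonneg (fun q _ => ha q v)
  have hS0 : ∀ v, 0 ≤ ∑ q, Qd q v := fun v => Finset.sum_nonneg (fun q _ => hQ q v)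
  have hc0 : ∀ v, 0 ≤ ∑ q, |a q v - r q v| := fun v =>
    Finset.sum_nonneg (fun q _ => abs_nonneg _)
  have hsq : ∀ v, ∑ q, a q v ^ 2 ≤ b v * ∑ q, Qd q v := by
    intro v
    rw [Finset.mul_sum]
    exact Finset.sum_le_sum (fun q _ => hF3 q v)
  have claim : ∀ v, (∑ q, |a q v - r q v|) ^ 2 ≤ b v * (m * (∑ q, Qd q v) - b v) := by
    intro v
    by_cases hbv : b v = 0
    · have ha0 : ∀ q, a q v = 0 := by
        intro q
        have h0 := (Finset.sum_eq_zero_iff_of_nonneg (fun q _ => ha q v)).mp ((hF1 v).trans hbv)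
        exact h0 q (Finset.mem_univ q)
      have hr : ∀ q, r q v = 0 := by
        intro q
        by_cases hg : good q v
        · rw [hr1 q v hg, hbv, zero_div]
        · exact hr0 q v hg
      have hc : ∑ q, |a q v - r q v| = 0 :=
        Finset.sum_eq_zero (fun q _ => by rw [ha0 q, hr q, sub_zero, abs_zero])
      rw [hc, hbv]
      norm_num
    · obtain ⟨H, hH, hHm⟩ := hcard v hbv
      have hout : ∀ q, q ∉ H → a q v = 0 := by
        intro q hq
        by_contra hne
        exact hq ((hH q).mpr (hF2 q v hne))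
      have hcH : ∑ q, |a q v - r q v| = ∑ q ∈ H, |a q v - b v / m| := by
        rw [← Finset.sum_subset (Finset.subset_univ H)]
        · exact Finset.sum_congr rfl (fun q hq => by rw [hr1 q v ((hH q).mp hq)])
        · intro q _ hq
          rw [hout q hq, hr0 q v (fun hg => hq ((hH q).mpr hg)), sub_zero, abs_zero]
      have hsumH : ∑ q ∈ H, a q v = b v := by
        rw [← hF1 v]
        exact Finset.sum_subset (Finset.subset_univ H) (fun q _ hq => hout q hq)
      have hsqH : ∑ q ∈ H, a q v ^ 2 ≤ b v * ∑ q, Qd q v := by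
        refine le_trans ?_ (hsq v)
        exact Finset.sum_le_sum_of_subset_of_nonneg (Finset.subset_univ H)
          (fun q _ _ => sq_nonneg _)
      have hcs : (∑ q ∈ H, |a q v - b v / m|) ^ 2
          ≤ (H.card : ℝ) * ∑ q ∈ H, |a q v - b v / m| ^ 2 :=
        sq_sum_le_card_mul_sum_sq
      have hexp : ∑ q ∈ H, |a q v - b v / m| ^ 2 = ∑ q ∈ H, a q v ^ 2 - b v ^ 2 / m := by
        have hterm : ∀ q ∈ H, |a q v - b v / m| ^ 2
            = a q v ^ 2 - 2 * (b v / m) * a q v + (b v / m) ^ 2 := by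
          intro q _
          rw [sq_abs]
          ring
        rw [Finset.sum_congr rfl hterm, Finset.sum_add_distrib, Finset.sum_sub_distrib,
          ← Finset.mul_sum, hsumH, Finset.sum_const, nsmul_eq_mul, hHm]
        field_simp
        ring
      rw [hcH]
      calc (∑ q ∈ H, |a q v - b v / m|) ^ 2
          ≤ (H.card : ℝ) * ∑ q ∈ H, |a q v - b v / m| ^ 2 := hcs
        _ = m * (∑ q ∈ H, a q v ^ 2) - b v ^ 2 := by
            rw [hexp, hHm]
            field_simp
        _ ≤ m * (b v * ∑ q, Qd q v) - b v ^ 2 := by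
            have := mul_le_mul_of_nonneg_left hsqH hm.le
            linarith
        _ = b v * (m * (∑ q, Qd q v) - b v) := by ring
  have hg0 : ∀ v, 0 ≤ m * (∑ q, Qd q v) - b v := by
    intro v
    by_cases hbv : b v = 0
    · rw [hbv, sub_zero]
      exact mul_nonneg hm.le (hS0 v)
    · have hbpos : 0 < b v := lt_of_le_of_ne (hb v) (Ne.symm hbv)
      have h2 : 0 ≤ b v * (m * (∑ q, Qd q v) - b v) := le_trans (sq_nonneg _) (claim v)
      by_contra hneg
      have hneg' : m * (∑ q, Qd q v) - b v < 0 := not_le.mp hneg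
      nlinarith
  have hCS := Finset.sum_sq_le_sum_mul_sum_of_sq_le_mul (Finset.univ : Finset V)
      (r := fun v => ∑ q, |a q v - r q v|) (f := b)
      (g := fun v => m * (∑ q, Qd q v) - b v)
      (fun v _ => hb v) (fun v _ => hg0 v) (fun v _ => claim v)
  calc (∑ v, ∑ q, |a q v - r q v|) ^ 2
      ≤ (∑ v, b v) * ∑ v, (m * (∑ q, Qd q v) - b v) := hCS
    _ = m * (∑ v, ∑ q, Qd q v) - 1 := by
        rw [Finset.sum_sub_distrib, ← Finset.mul_sum, hF4]
        ring

/-- CV5, with the prerequisites from CV4 (`hdiag`) and CV1 (`hQnn`) as hypotheses. -/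
theorem defect_sq_le_of (h j : ℕ) [NeZero h]
    (hdiag : ∀ (t : ℕ) (p q : ZMod (2 * h)) (w v : Fin j → ZMod (2 * h)),
      ((Kmat h (j + 1) ^ t) (Fin.cons p w) (Fin.cons q v)) ^ 2
        ≤ (Kmat h j ^ t) w v
          * (Qmat h j ^ t) (Fin.cons p (Fin.cons p w)) (Fin.cons q (Fin.cons q v)))
    (hQnn : ∀ (t : ℕ) (u y : Fin (j + 2) → ZMod (2 * h)), 0 ≤ (Qmat h j ^ t) u y)
    (t : ℕ) (p : ZMod (2 * h)) (w : Fin j → ZMod (2 * h))
    (hz : Function.Injective (Fin.cons p w : Fin (j + 1) → ZMod (2 * h))) :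
    (defect h j t (Fin.cons p w)) ^ 2
      ≤ ((2 * h : ℝ) - j) * Dcol h j t (Fin.cons p (Fin.cons p w)) - 1 := by
  classical
  have hw : Function.Injective w := (Fin.cons_injective_iff.mp hz).2
  have hcardle : j + 1 ≤ 2 * h := by
    have h1 := Fintype.card_le_of_injective _ hz
    rwa [Fintype.card_fin, ZMod.card] at h1
  have hm : (0 : ℝ) < (2 * h : ℝ) - j := by
    have h1 : ((j : ℝ) + 1) ≤ 2 * (h : ℝ) := by exact_mod_cast hcardle
    linarith
  have hdef : defect h j t (Fin.cons p w)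
      = ∑ v : Fin j → ZMod (2 * h), ∑ q : ZMod (2 * h),
        |(Kmat h (j + 1) ^ t) (Fin.cons p w) (Fin.cons q v)
          - resamp h j t (Fin.cons p w) (Fin.cons q v)| := by
    rw [defect_apply, H23.sum_fin_succ_fun, Finset.sum_comm]
  have hD : Dcol h j t (Fin.cons p (Fin.cons p w))
      = ∑ v : Fin j → ZMod (2 * h), ∑ q : ZMod (2 * h),
        (Qmat h j ^ t) (Fin.cons p (Fin.cons p w)) (Fin.cons q (Fin.cons q v)) :=
    Dcol_apply h j t _
  have h1 : ∀ (q : ZMod (2 * h)) (v : Fin j → ZMod (2 * h)),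
      0 ≤ (Kmat h (j + 1) ^ t) (Fin.cons p w) (Fin.cons q v) :=
    fun q v => H95.Kmat_pow_nonneg h (j + 1) t _ _
  have h2 : ∀ (q : ZMod (2 * h)) (v : Fin j → ZMod (2 * h)),
      0 ≤ (Qmat h j ^ t) (Fin.cons p (Fin.cons p w)) (Fin.cons q (Fin.cons q v)) :=
    fun q v => hQnn t _ _
  have h3 : ∀ v : Fin j → ZMod (2 * h),
      ∑ q : ZMod (2 * h), (Kmat h (j + 1) ^ t) (Fin.cons p w) (Fin.cons q v)
        = (Kmat h j ^ t) w v :=
    fun v => H43.lump_tail h j t (Fin.cons p w) v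
  have h4 : ∀ (q : ZMod (2 * h)) (v : Fin j → ZMod (2 * h)),
      (Kmat h (j + 1) ^ t) (Fin.cons p w) (Fin.cons q v) ≠ 0 → ∀ i, q ≠ v i := by
    intro q v hne i hqi
    have hinj : Function.Injective (Fin.cons q v : Fin (j + 1) → ZMod (2 * h)) :=
      H95.Kmat_pow_support h (j + 1) (H36.move_injective h) (Fin.cons p w) hz t _ hne
    exact (Fin.cons_injective_iff.mp hinj).1 ⟨i, hqi.symm⟩
  have h5 : ∀ (q : ZMod (2 * h)) (v : Fin j → ZMod (2 * h)), (∀ i, q ≠ v i) →
      resamp h j t (Fin.cons p w) (Fin.cons q v) = (Kmat h j ^ t) w v / ((2 * h : ℝ) - j) := by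
    intro q v hg
    have hc : ∀ i : Fin j, (Fin.cons q v : Fin (j + 1) → ZMod (2 * h)) 0
        ≠ (Fin.cons q v : Fin (j + 1) → ZMod (2 * h)) i.succ := fun i => hg i
    rw [resamp_apply, if_pos hc]
    rfl
  have h6 : ∀ (q : ZMod (2 * h)) (v : Fin j → ZMod (2 * h)), ¬ (∀ i, q ≠ v i) →
      resamp h j t (Fin.cons p w) (Fin.cons q v) = 0 := by
    intro q v hg
    have hc : ¬ ∀ i : Fin j, (Fin.cons q v : Fin (j + 1) → ZMod (2 * h)) 0
        ≠ (Fin.cons q v : Fin (j + 1) → ZMod (2 * h)) i.succ := fun hall => hg (fun i => hall i)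
    rw [resamp_apply, if_neg hc]
  have h7 : ∀ v : Fin j → ZMod (2 * h), (Kmat h j ^ t) w v ≠ 0 →
      ∃ H : Finset (ZMod (2 * h)), (∀ q, q ∈ H ↔ ∀ i, q ≠ v i)
        ∧ (H.card : ℝ) = (2 * h : ℝ) - j := by
    intro v hbv
    have hv : Function.Injective v :=
      H95.Kmat_pow_support h j (H36.move_injective h) w hw t v hbv
    refine ⟨univ.filter (fun q : ZMod (2 * h) => ∀ i, q ≠ v i), fun q => ?_, ?_⟩
    · rw [Finset.mem_filter]
      exact ⟨fun hq => hq.2, fun hq => ⟨Finset.mem_univ q, hq⟩⟩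
    · rw [H5.card_avoid j v hv, ZMod.card, Nat.cast_sub (by omega)]
      push_cast
      ring
  have h8 : ∀ (q : ZMod (2 * h)) (v : Fin j → ZMod (2 * h)),
      ((Kmat h (j + 1) ^ t) (Fin.cons p w) (Fin.cons q v)) ^ 2
        ≤ (Kmat h j ^ t) w v
          * (Qmat h j ^ t) (Fin.cons p (Fin.cons p w)) (Fin.cons q (Fin.cons q v)) :=
    fun q v => hdiag t p q w v
  have h9 : ∑ v : Fin j → ZMod (2 * h), (Kmat h j ^ t) w v = 1 := H95.Kmat_pow_sum h j t w
  rw [hdef, hD]
  exact defect_core (fun q v => (Kmat h (j + 1) ^ t) (Fin.cons p w) (Fin.cons q v))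
    (fun q v => resamp h j t (Fin.cons p w) (Fin.cons q v))
    (fun q v => (Qmat h j ^ t) (Fin.cons p (Fin.cons p w)) (Fin.cons q (Fin.cons q v)))
    (fun v => (Kmat h j ^ t) w v) (fun q v => ∀ i, q ≠ v i) ((2 * h : ℝ) - j) hm
    h1 h2 h3 h4 h5 h6 h7 h8 h9

end Vale.Agent.Lib.P162.H85CV
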